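import Mathlib
import Vale.Agent.Lib.P328.RP.RestrictedCol

/-!
P328: the local-to-global step for a partition of the rows into blocks, and the transfer of
a four-row inequality to four rows of a larger table.

* `BK.block_hgap` : if the rows are partitioned into blocks (the sites), and every three
  sites satisfy the triple inequality, then the variance is bounded by the sum over the pairs
  of sites of the Dirichlet forms of the resampling of the two blocks.
* `BK.four_transfer` : an inequality between the resamplings of the row sets `{2,3}`,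
  `{0,1,3}`, `{0,1,2}` and all four rows of the `4 × n` tables transfers to the rows
  `φ 0, φ 1, φ 2, φ 3` of the `m × n` tables.
-/

namespace Vale.Agent.Lib.P328.RP

open Finset
open Vale.Agent.Lib.P335.Bip
open BlockTransfer

namespace BK

/-- **Block version of the local-to-global step.**  The rows are partitioned into blocks
`blk s`, one for every site `s`.  If for every three sites the resampling of the union of
the three blocks is dominated by the three resamplings of the unions of two of the blocks,
then the variance is at most the sum over all pairs of sites of the Dirichlet forms of the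
resamplings of the unions of two blocks. -/
theorem block_hgap {m n : ℕ} (r : Fin m → ℕ) (c : Fin n → ℕ) {ι : Type*} [Fintype ι]
    [DecidableEq ι] (blk : ι → Finset (Fin m))
    (hdisj : ∀ s t : ι, s ≠ t → Disjoint (blk s) (blk t))
    (hcov : ∀ i : Fin m, ∃ s, i ∈ blk s)
    (hcard : 2 ≤ Fintype.card ι)
    (htriple : ∀ T : Finset ι, T.card = 3 → ∀ f : CT m n r c → ℝ,
      ip f f - ip f (R (T.biUnion blk) f)
        ≤ ∑ e ∈ T.powersetCard 2, (ip f f - ip f (R (e.biUnion blk) f)))
    (f : CT m n r c → ℝ) :
    ip f f - ip f (R univ f)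
      ≤ ∑ e ∈ (univ : Finset ι).powersetCard 2, (ip f f - ip f (R (e.biUnion blk) f)) := by
  classical
  set H : (CT m n r c → ℝ) →ₗ[ℝ] (CT m n r c → ℝ) :=
    ∑ e ∈ (univ : Finset ι).powersetCard 2, PR (e.biUnion blk) with hH
  have hHapp : ∀ g, H g = ∑ e ∈ (univ : Finset ι).powersetCard 2, PR (e.biUnion blk) g := by
    intro g
    rw [hH, LinearMap.sum_apply]
  have hform : ∀ g, ip g (H g)
      = ∑ e ∈ (univ : Finset ι).powersetCard 2, (ip g g - ip g (R (e.biUnion blk) g)) := by
    intro g
    rw [hHapp, ip_sum_right]
    exact Finset.sum_congr rfl (fun e _ => ip_PR (e.biUnion blk) g)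
  have hdis : ∀ e e' : Finset ι, Disjoint e e' →
      Disjoint (e.biUnion blk) (e'.biUnion blk) := by
    intro e e' hd
    rw [Finset.disjoint_biUnion_left]
    intro s hs
    rw [Finset.disjoint_biUnion_right]
    intro t ht
    exact hdisj s t (fun hst => Finset.disjoint_left.mp hd hs (hst ▸ ht))
  have hsq : ∀ g, ip g (H g) ≤ ip (H g) (H g) := by
    intro g
    rw [hHapp]
    refine knabe (fun e => PR (e.biUnion blk)) (fun T => R (T.biUnion blk))
      (fun e _ => PR_symm (e.biUnion blk)) (fun e _ => PR_idem (e.biUnion blk))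
      (fun e e' _ _ hd => PR_comm (e.biUnion blk) (e'.biUnion blk) (hdis e e' hd))
      (fun T _ => R_symm (T.biUnion blk)) (fun T _ => R_idem (T.biUnion blk)) ?_ ?_ g
    · intro T _ e he g'
      exact PR_R_of_subset
        (Finset.biUnion_subset_biUnion_of_subset_left blk (Finset.mem_powersetCard.mp he).1) g'
    · intro T hT g'
      have h1 := htriple T hT g'
      rw [Finset.sum_congr rfl (fun e _ => ip_PR (e.biUnion blk) g')]
      exact h1
  have hker : ∀ g, H g = 0 → R univ g = g := by
    intro g hg
    have h0 : ip g (H g) = 0 := by rw [hg, ip_zero_right]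
    rw [hform] at h0
    have hterm : ∀ e ∈ (univ : Finset ι).powersetCard 2,
        ip g g - ip g (R (e.biUnion blk) g) = 0 := by
      have hnn : ∀ e ∈ (univ : Finset ι).powersetCard 2,
          0 ≤ ip g g - ip g (R (e.biUnion blk) g) :=
        fun e _ => sub_nonneg.mpr (ip_cexp_le _ g)
      exact (Finset.sum_eq_zero_iff_of_nonneg hnn).mp h0
    have hfixE : ∀ e : Finset ι, e.card = 2 → R (e.biUnion blk) g = g := by
      intro e he
      have h1 := hterm e (Finset.mem_powersetCard.mpr ⟨Finset.subset_univ _, he⟩)
      have h2 : ip (g - R (e.biUnion blk) g) (g - R (e.biUnion blk) g) = 0 := by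
        rw [← h1]
        exact ip_sub_cexp _ g
      have h3' := ip_self_eq_zero.mp h2
      exact (sub_eq_zero.mp h3').symm
    have hfix : ∀ p : Finset (Fin m), p.card = 2 → R p g = g := by
      intro p hp
      obtain ⟨x, y, hxy, rfl⟩ := Finset.card_eq_two.mp hp
      obtain ⟨sx, hsx⟩ := hcov x
      obtain ⟨sy, hsy⟩ := hcov y
      have hex : ∃ e : Finset ι, e.card = 2 ∧ sx ∈ e ∧ sy ∈ e := by
        by_cases hs : sx = sy
        · obtain ⟨s', hs'⟩ := Fintype.exists_ne_of_one_lt_card (by omega) sx
          refine ⟨{sx, s'}, Finset.card_pair (Ne.symm hs'), by simp, ?_⟩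
          rw [← hs]
          simp
        · exact ⟨{sx, sy}, Finset.card_pair hs, by simp, by simp⟩
      obtain ⟨e, he, hxe, hye⟩ := hex
      have hsub : ({x, y} : Finset (Fin m)) ⊆ e.biUnion blk := by
        intro i hi
        rw [Finset.mem_insert, Finset.mem_singleton] at hi
        rw [Finset.mem_biUnion]
        rcases hi with rfl | rfl
        · exact ⟨sx, hxe, hsx⟩
        · exact ⟨sy, hye, hsy⟩
      have h4 := R_R_of_subset hsub g
      rw [hfixE e he] at h4
      exact h4
    exact cexp_of_factor _ (fun x y _ => const_of_fixed g hfix x y)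
  have key := gap_of_sq H (R univ)
    (by
      intro g h
      rw [hHapp, hHapp, ip_sum_right, ip_sum_left]
      exact Finset.sum_congr rfl (fun e _ => PR_symm (e.biUnion blk) g h))
    (R_symm univ)
    (by
      intro g
      rw [hHapp]
      exact Finset.sum_eq_zero (fun e _ => PR_R_of_subset (Finset.subset_univ _) g))
    (by
      intro g
      rw [hform]
      exact Finset.sum_nonneg (fun e _ => sub_nonneg.mpr (ip_cexp_le _ g)))
    hsq hker f
  rw [hform] at key
  exact key

/-- **Transfer of the four-row inequality.**  An inequality between the resamplings of the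
row sets `{2,3}`, `{0,1,3}`, `{0,1,2}` and of all four rows that holds on the `4 × n` tables
with row sums `r ∘ φ` and with the column sums of the rows `φ a` of any table `x0` holds,
inside the rows `φ 0, φ 1, φ 2, φ 3`, on all `m × n` tables with margins `r`, `c`. -/
theorem four_transfer {m n : ℕ} {r : Fin m → ℕ} {c : Fin n → ℕ} (φ : Fin 4 ↪ Fin m)
    (h4 : ∀ (x0 : CT m n r c) (g : CT 4 n (r ∘ φ) (fun j => ∑ a, x0.1 (φ a) j) → ℝ),
      ip g (R {2, 3} g) + ip g (R {0, 1, 3} g) + ip g (R {0, 1, 2} g)
        ≤ 2 * ip g g + ip g (R univ g))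
    (f : CT m n r c → ℝ) :
    ip f (R {φ 2, φ 3} f) + ip f (R {φ 0, φ 1, φ 3} f) + ip f (R {φ 0, φ 1, φ 2} f)
      ≤ 2 * ip f f + ip f (R {φ 0, φ 1, φ 2, φ 3} f) := by
  classical
  set a : Fin 4 → ℝ := ![1, 1, 1, -1] with ha
  set P : Fin 4 → Finset (Fin 4) := ![{2, 3}, {0, 1, 3}, {0, 1, 2}, univ] with hP
  have h : ∀ (x0 : CT m n r c) (g : CT 4 n (r ∘ φ) (fun j => ∑ a, x0.1 (φ a) j) → ℝ),
      ∑ α ∈ (univ : Finset (Fin 4)), a α * ip g (E (P α) (univ : Finset (Fin n)) g)
        ≤ 2 * ip g g := by
    intro x0 g
    have h' := h4 x0 g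
    rw [Fin.sum_univ_four]
    simp only [ha, hP, E_univ_right, Matrix.cons_val_zero, Matrix.cons_val_one,
      Matrix.cons_val_two, Matrix.cons_val_three, Matrix.head_cons, Matrix.tail_cons]
    linarith
  have key := block_transfer_at (univ : Finset (Fin 4)) a P
    (fun _ => (univ : Finset (Fin n))) 2 φ h f
  have hmap : (univ : Finset (Fin 4)).map φ = {φ 0, φ 1, φ 2, φ 3} := by
    rw [show (univ : Finset (Fin 4)) = {0, 1, 2, 3} from by decide]
    simp only [Finset.map_insert, Finset.map_singleton]
  rw [Fin.sum_univ_four] at key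
  simp only [ha, hP, E_univ_right, Matrix.cons_val_zero, Matrix.cons_val_one,
    Matrix.cons_val_two, Matrix.cons_val_three, Matrix.head_cons, Matrix.tail_cons,
    Finset.map_insert, Finset.map_singleton, hmap] at key
  linarith

end BK

end Vale.Agent.Lib.P328.RP
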