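import Mathlib
import Vale.Agent.Lib.P328.helper28.BlockKnabe

/-!
P328: two arbitrary rows and small rows, the assembly.  The two arbitrary rows `i0`, `i1`
form one block, every other row is a block of its own.

* `BK.triple_sum` : the sum over the pairs inside a three-element set.
* `BK.crude_transfer` : transfer of a gap inequality for three rows (with a constant).
* `BK.block_refine` : from the Dirichlet forms of the unions of two blocks to the Dirichlet
  forms of the pairs of rows.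
* `BK.two_fat_hgap` : the gap inequality for the row-pair resamplings, given the four-row
  inequality for (block, row, row), a gap inequality with a constant for the three rows
  (block, row) and the three-row inequality for three rows outside the block.
-/

namespace Vale.Agent.Lib.P328.RP

open Finset
open Vale.Agent.Lib.P335.Bip
open BlockTransfer

namespace BK

theorem inj3 {α : Type*} (x y z : α) (hxy : x ≠ y) (hxz : x ≠ z) (hyz : y ≠ z) :
    Function.Injective ![x, y, z] := by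
  intro i j h
  fin_cases i <;> fin_cases j <;> first | rfl | (exfalso; simp at h; tauto)

theorem inj4 {α : Type*} (x y z w : α) (hxy : x ≠ y) (hxz : x ≠ z) (hxw : x ≠ w)
    (hyz : y ≠ z) (hyw : y ≠ w) (hzw : z ≠ w) : Function.Injective ![x, y, z, w] := by
  intro i j h
  fin_cases i <;> fin_cases j <;> first | rfl | (exfalso; simp at h; tauto)

theorem map_univ3 {α : Type*} [DecidableEq α] (ψ : Fin 3 ↪ α) :
    (univ : Finset (Fin 3)).map ψ = {ψ 0, ψ 1, ψ 2} := by
  rw [show (univ : Finset (Fin 3)) = {0, 1, 2} from by decide]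
  simp only [Finset.map_insert, Finset.map_singleton]

/-- The sum over the pairs inside the three-element set `{ψ 0, ψ 1, ψ 2}`. -/
theorem triple_sum {α : Type*} [DecidableEq α] (ψ : Fin 3 ↪ α) (F : Finset α → ℝ) :
    ∑ e ∈ ((univ : Finset (Fin 3)).map ψ).powersetCard 2, F e
      = F {ψ 1, ψ 2} + F {ψ 0, ψ 2} + F {ψ 0, ψ 1} := by
  rw [powersetCard_map, Finset.sum_map]
  simp only [RelEmbedding.coe_toEmbedding, mapEmbedding_apply]
  rw [ThreeTwo.sum_pairs (fun q => F (q.map ψ)), Fin.sum_univ_three]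
  have e0 : (univ : Finset (Fin 3)).erase 0 = {1, 2} := by decide
  have e1 : (univ : Finset (Fin 3)).erase 1 = {0, 2} := by decide
  have e2 : (univ : Finset (Fin 3)).erase 2 = {0, 1} := by decide
  rw [e0, e1, e2]
  simp only [Finset.map_insert, Finset.map_singleton]

/-- **Transfer of a three-row gap inequality with a constant.** -/
theorem crude_transfer {m n : ℕ} {r : Fin m → ℕ} {c : Fin n → ℕ} (φ : Fin 3 ↪ Fin m) (K : ℝ)
    (h3 : ∀ (x0 : CT m n r c) (g : CT 3 n (r ∘ φ) (fun j => ∑ a, x0.1 (φ a) j) → ℝ),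
      ip g g - ip g (R univ g)
        ≤ K * ∑ q ∈ (univ : Finset (Fin 3)).powersetCard 2, (ip g g - ip g (R q g)))
    (f : CT m n r c → ℝ) :
    ip f f - ip f (R {φ 0, φ 1, φ 2} f)
      ≤ K * ((ip f f - ip f (R {φ 1, φ 2} f)) + (ip f f - ip f (R {φ 0, φ 2} f))
          + (ip f f - ip f (R {φ 0, φ 1} f))) := by
  classical
  set a : Fin 4 → ℝ := ![K, K, K, -1] with ha
  set P : Fin 4 → Finset (Fin 3) := ![{1, 2}, {0, 2}, {0, 1}, univ] with hP
  have e0 : (univ : Finset (Fin 3)).erase 0 = {1, 2} := by decide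
  have e1 : (univ : Finset (Fin 3)).erase 1 = {0, 2} := by decide
  have e2 : (univ : Finset (Fin 3)).erase 2 = {0, 1} := by decide
  have h : ∀ (x0 : CT m n r c) (g : CT 3 n (r ∘ φ) (fun j => ∑ a, x0.1 (φ a) j) → ℝ),
      ∑ α ∈ (univ : Finset (Fin 4)), a α * ip g (E (P α) (univ : Finset (Fin n)) g)
        ≤ (3 * K - 1) * ip g g := by
    intro x0 g
    have h' := h3 x0 g
    rw [ThreeTwo.sum_pairs (fun q => ip g g - ip g (R q g)), Fin.sum_univ_three, e0, e1, e2]
      at h'
    rw [Fin.sum_univ_four]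
    simp only [ha, hP, E_univ_right, Matrix.cons_val_zero, Matrix.cons_val_one,
      Matrix.cons_val_two, Matrix.cons_val_three, Matrix.head_cons, Matrix.tail_cons]
    linarith
  have key := block_transfer_at (univ : Finset (Fin 4)) a P
    (fun _ => (univ : Finset (Fin n))) (3 * K - 1) φ h f
  rw [Fin.sum_univ_four] at key
  simp only [ha, hP, E_univ_right, Matrix.cons_val_zero, Matrix.cons_val_one,
    Matrix.cons_val_two, Matrix.cons_val_three, Matrix.head_cons, Matrix.tail_cons,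
    Finset.map_insert, Finset.map_singleton, map_univ3] at key
  linarith

/-- **From blocks to pairs of rows.**  If the Dirichlet form of the resampling of the union
of two blocks is at most `K` times the sum of the Dirichlet forms of the resamplings of the
pairs of rows inside that union, then the sum over all pairs of blocks is at most
`K (N - 1)` times the sum over all pairs of rows, `N` the number of blocks. -/
theorem block_refine {m n : ℕ} (r : Fin m → ℕ) (c : Fin n → ℕ) {ι : Type*} [Fintype ι]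
    [DecidableEq ι] (blk : ι → Finset (Fin m))
    (hdisj : ∀ s t : ι, s ≠ t → Disjoint (blk s) (blk t))
    (hcov : ∀ i : Fin m, ∃ s, i ∈ blk s) (K : ℝ) (hK : 0 ≤ K) (f : CT m n r c → ℝ)
    (hloc : ∀ e : Finset ι, e.card = 2 →
      ip f f - ip f (R (e.biUnion blk) f)
        ≤ K * ∑ p ∈ (e.biUnion blk).powersetCard 2, (ip f f - ip f (R p f))) :
    ∑ e ∈ (univ : Finset ι).powersetCard 2, (ip f f - ip f (R (e.biUnion blk) f))
      ≤ K * ((Fintype.card ι : ℝ) - 1)
          * ∑ p ∈ (univ : Finset (Fin m)).powersetCard 2, (ip f f - ip f (R p f)) := by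
  classical
  set D : Finset (Fin m) → ℝ := fun p => ip f f - ip f (R p f) with hD
  have hD0 : ∀ p, 0 ≤ D p := fun p => sub_nonneg.mpr (ip_cexp_le _ f)
  set PP : Finset (Finset ι) := (univ : Finset ι).powersetCard 2 with hPP
  set QQ : Finset (Finset (Fin m)) := (univ : Finset (Fin m)).powersetCard 2 with hQQ
  have hfil : ∀ S : Finset (Fin m), S.powersetCard 2 = QQ.filter (fun p => p ⊆ S) := by
    intro S
    ext p
    simp only [hQQ, Finset.mem_powersetCard, Finset.mem_filter, Finset.subset_univ, true_and]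
    tauto
  have hcount : ∀ p ∈ QQ, ((PP.filter (fun e => p ⊆ e.biUnion blk)).card : ℝ)
      ≤ (Fintype.card ι : ℝ) - 1 := by
    intro p hp
    have hp2 : p.card = 2 := (Finset.mem_powersetCard.mp hp).2
    obtain ⟨x, hx⟩ : p.Nonempty := by
      rw [← Finset.card_pos, hp2]
      norm_num
    obtain ⟨s, hs⟩ := hcov x
    have hsub : PP.filter (fun e => p ⊆ e.biUnion blk)
        ⊆ ((univ : Finset ι).erase s).image (fun t => ({s, t} : Finset ι)) := by
      intro e he
      rw [Finset.mem_filter] at he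
      obtain ⟨heP, hpe⟩ := he
      have he2 : e.card = 2 := (Finset.mem_powersetCard.mp heP).2
      have hxe := hpe hx
      rw [Finset.mem_biUnion] at hxe
      obtain ⟨s', hs'e, hxs'⟩ := hxe
      have hss' : s' = s := by
        by_contra hne
        exact Finset.disjoint_left.mp (hdisj s' s hne) hxs' hs
      rw [hss'] at hs'e
      obtain ⟨u, v, huv, rfl⟩ := Finset.card_eq_two.mp he2
      rw [Finset.mem_image]
      rw [Finset.mem_insert, Finset.mem_singleton] at hs'e
      rcases hs'e with h | h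
      · refine ⟨v, ?_, ?_⟩
        · rw [Finset.mem_erase]
          exact ⟨fun hv => huv (h ▸ hv.symm), Finset.mem_univ _⟩
        · rw [h]
      · refine ⟨u, ?_, ?_⟩
        · rw [Finset.mem_erase]
          exact ⟨fun hu => huv (h ▸ hu), Finset.mem_univ _⟩
        · rw [h, Finset.pair_comm]
    have h1 := (Finset.card_le_card hsub).trans Finset.card_image_le
    have h2 : ((univ : Finset ι).erase s).card + 1 = Fintype.card ι := by
      rw [Finset.card_erase_add_one (Finset.mem_univ s), Finset.card_univ]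
    have h3 : ((PP.filter (fun e => p ⊆ e.biUnion blk)).card : ℝ) + 1
        ≤ (Fintype.card ι : ℝ) := by
      have : (PP.filter (fun e => p ⊆ e.biUnion blk)).card + 1 ≤ Fintype.card ι := by omega
      exact_mod_cast this
    linarith
  calc ∑ e ∈ PP, D (e.biUnion blk)
      ≤ ∑ e ∈ PP, K * ∑ p ∈ (e.biUnion blk).powersetCard 2, D p :=
        Finset.sum_le_sum (fun e he => hloc e (Finset.mem_powersetCard.mp he).2)
    _ = K * ∑ p ∈ QQ, ∑ e ∈ PP, (if p ⊆ e.biUnion blk then D p else 0) := by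
        rw [← Finset.mul_sum, Finset.sum_comm]
        congr 1
        refine Finset.sum_congr rfl (fun e _ => ?_)
        rw [hfil, Finset.sum_filter]
    _ = K * ∑ p ∈ QQ, ((PP.filter (fun e => p ⊆ e.biUnion blk)).card : ℝ) * D p := by
        congr 1
        refine Finset.sum_congr rfl (fun p _ => ?_)
        rw [← Finset.sum_filter, Finset.sum_const, nsmul_eq_mul]
    _ ≤ K * ∑ p ∈ QQ, ((Fintype.card ι : ℝ) - 1) * D p := by
        refine mul_le_mul_of_nonneg_left ?_ hK
        exact Finset.sum_le_sum (fun p hp =>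
          mul_le_mul_of_nonneg_right (hcount p hp) (hD0 p))
    _ = K * ((Fintype.card ι : ℝ) - 1) * ∑ p ∈ QQ, D p := by
        rw [← Finset.mul_sum, mul_assoc]

/-- The block of a site: the sites are the rows other than `i1`; the site `i0` stands for the
block `{i0, i1}` and every other site for its own row. -/
def blk {m : ℕ} (i0 i1 : Fin m) (s : {i : Fin m // i ≠ i1}) : Finset (Fin m) :=
  if s.1 = i0 then {i0, i1} else {s.1}

theorem blk_of_eq {m : ℕ} (i0 i1 : Fin m) (s : {i : Fin m // i ≠ i1}) (hs : s.1 = i0) :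
    blk i0 i1 s = {i0, i1} := if_pos hs

theorem blk_of_ne {m : ℕ} (i0 i1 : Fin m) (s : {i : Fin m // i ≠ i1}) (hs : s.1 ≠ i0) :
    blk i0 i1 s = {s.1} := if_neg hs

theorem blk_disj {m : ℕ} (i0 i1 : Fin m) (s t : {i : Fin m // i ≠ i1}) (hst : s ≠ t) :
    Disjoint (blk i0 i1 s) (blk i0 i1 t) := by
  have hne : s.1 ≠ t.1 := fun h => hst (Subtype.ext h)
  by_cases hs : s.1 = i0
  · have ht : t.1 ≠ i0 := fun h => hne (hs.trans h.symm)
    rw [blk_of_eq i0 i1 s hs, blk_of_ne i0 i1 t ht, Finset.disjoint_singleton_right]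
    intro hmem
    rw [Finset.mem_insert, Finset.mem_singleton] at hmem
    rcases hmem with h | h
    · exact ht h
    · exact t.2 h
  · by_cases ht : t.1 = i0
    · rw [blk_of_ne i0 i1 s hs, blk_of_eq i0 i1 t ht, Finset.disjoint_singleton_left]
      intro hmem
      rw [Finset.mem_insert, Finset.mem_singleton] at hmem
      rcases hmem with h | h
      · exact hs h
      · exact s.2 h
    · rw [blk_of_ne i0 i1 s hs, blk_of_ne i0 i1 t ht, Finset.disjoint_singleton]
      exact hne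

theorem blk_cov {m : ℕ} (i0 i1 : Fin m) (h01 : i0 ≠ i1) (i : Fin m) :
    ∃ s, i ∈ blk i0 i1 s := by
  by_cases hi : i = i1
  · refine ⟨⟨i0, h01⟩, ?_⟩
    rw [blk_of_eq i0 i1 ⟨i0, h01⟩ rfl, hi]
    simp
  · refine ⟨⟨i, hi⟩, ?_⟩
    by_cases h0 : i = i0
    · rw [blk_of_eq i0 i1 ⟨i, hi⟩ h0, h0]
      simp
    · rw [blk_of_ne i0 i1 ⟨i, hi⟩ h0]
      simp

theorem card_sites {m : ℕ} (i1 : Fin m) : Fintype.card {i : Fin m // i ≠ i1} = m - 1 := by
  rw [Fintype.card_subtype_compl, Fintype.card_subtype_eq, Fintype.card_fin]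

theorem fin3_cases : ∀ a : Fin 3, a = 0 ∨ a = 1 ∨ a = 2 := by decide

/-- **Two arbitrary rows and small rows: the gap inequality for the row-pair resamplings.**
Rows `i0 ≠ i1` form one block.  Given
* `hB` : the four-row inequality for the block and two further rows,
* `hD` : a gap inequality with constant `K` for the three rows formed by the block and one
  further row,
* `hU` : the three-row inequality for three rows outside the block,
each for the systems that occur inside the `m × n` tables with margins `r`, `c`, the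
variance is at most `K (m - 2)` times the sum of the Dirichlet forms of the row-pair
resamplings. -/
theorem two_fat_hgap {m n : ℕ} (hm : 3 ≤ m) (r : Fin m → ℕ) (c : Fin n → ℕ) (i0 i1 : Fin m)
    (h01 : i0 ≠ i1) (K : ℝ) (hK : 1 ≤ K)
    (hB : ∀ φ : Fin 4 ↪ Fin m, φ 0 = i0 → φ 1 = i1 → ∀ (x0 : CT m n r c)
      (g : CT 4 n (r ∘ φ) (fun j => ∑ a, x0.1 (φ a) j) → ℝ),
      ip g (R {2, 3} g) + ip g (R {0, 1, 3} g) + ip g (R {0, 1, 2} g)
        ≤ 2 * ip g g + ip g (R univ g))
    (hD : ∀ φ : Fin 3 ↪ Fin m, φ 0 = i0 → φ 1 = i1 → ∀ (x0 : CT m n r c)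
      (g : CT 3 n (r ∘ φ) (fun j => ∑ a, x0.1 (φ a) j) → ℝ),
      ip g g - ip g (R univ g)
        ≤ K * ∑ q ∈ (univ : Finset (Fin 3)).powersetCard 2, (ip g g - ip g (R q g)))
    (hU : ∀ φ : Fin 3 ↪ Fin m, (∀ a, φ a ≠ i0 ∧ φ a ≠ i1) → ∀ (x0 : CT m n r c)
      (g : CT 3 n (r ∘ φ) (fun j => ∑ a, x0.1 (φ a) j) → ℝ),
      ∑ q ∈ (univ : Finset (Fin 3)).powersetCard 2, ip g (R q g)
        ≤ 2 * ip g g + ip g (R univ g))
    (f : CT m n r c → ℝ) :
    ip f f - ip f (R univ f)
      ≤ K * ((m : ℝ) - 2)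
          * ∑ p ∈ (univ : Finset (Fin m)).powersetCard 2, (ip f f - ip f (R p f)) := by
  classical
  obtain ⟨B, hBval⟩ : ∃ B : {i : Fin m // i ≠ i1}, B.1 = i0 := ⟨⟨i0, h01⟩, rfl⟩
  have hcard : Fintype.card {i : Fin m // i ≠ i1} = m - 1 := card_sites i1
  have hne0 : ∀ s : {i : Fin m // i ≠ i1}, s ≠ B → s.1 ≠ i0 :=
    fun s hs h => hs (Subtype.ext (h.trans hBval.symm))
  have bB : blk i0 i1 B = {i0, i1} := blk_of_eq i0 i1 B hBval
  -- the triple inequality for the blocks
  have htriple : ∀ T : Finset {i : Fin m // i ≠ i1}, T.card = 3 → ∀ g : CT m n r c → ℝ,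
      ip g g - ip g (R (T.biUnion (blk i0 i1)) g)
        ≤ ∑ e ∈ T.powersetCard 2, (ip g g - ip g (R (e.biUnion (blk i0 i1)) g)) := by
    intro T hT g
    by_cases hBT : B ∈ T
    · have hc2 : (T.erase B).card = 2 := by rw [Finset.card_erase_of_mem hBT, hT]
      obtain ⟨a, b, hab, hTe⟩ := Finset.card_eq_two.mp hc2
      have haT : a ∈ T.erase B := by rw [hTe]; simp
      have hbT : b ∈ T.erase B := by rw [hTe]; simp
      have haB : a ≠ B := (Finset.mem_erase.mp haT).1
      have hbB : b ≠ B := (Finset.mem_erase.mp hbT).1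
      have ha0 := hne0 a haB
      have hb0 := hne0 b hbB
      have hab' : a.1 ≠ b.1 := fun h => hab (Subtype.ext h)
      obtain ⟨ψ, q0, q1, q2⟩ : ∃ ψ : Fin 3 ↪ {i : Fin m // i ≠ i1},
          ψ 0 = B ∧ ψ 1 = a ∧ ψ 2 = b :=
        ⟨⟨![B, a, b], inj3 B a b (Ne.symm haB) (Ne.symm hbB) hab⟩, rfl, rfl, rfl⟩
      have hTψ : T = (univ : Finset (Fin 3)).map ψ := by
        rw [map_univ3, q0, q1, q2, ← hTe, Finset.insert_erase hBT]
      obtain ⟨φ, p0, p1, p2, p3⟩ : ∃ φ : Fin 4 ↪ Fin m,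
          φ 0 = i0 ∧ φ 1 = i1 ∧ φ 2 = a.1 ∧ φ 3 = b.1 :=
        ⟨⟨![i0, i1, a.1, b.1], inj4 i0 i1 a.1 b.1 h01 (Ne.symm ha0) (Ne.symm hb0)
          (Ne.symm a.2) (Ne.symm b.2) hab'⟩, rfl, rfl, rfl, rfl⟩
      have h4 := four_transfer φ (hB φ p0 p1) g
      rw [p0, p1, p2, p3] at h4
      have ba : blk i0 i1 a = {a.1} := blk_of_ne i0 i1 a ha0
      have bb : blk i0 i1 b = {b.1} := blk_of_ne i0 i1 b hb0
      have u1 : ({a, b} : Finset {i : Fin m // i ≠ i1}).biUnion (blk i0 i1) = {a.1, b.1} := by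
        rw [Finset.biUnion_insert, Finset.singleton_biUnion, ba, bb, Finset.singleton_union]
      have u2 : ({B, b} : Finset {i : Fin m // i ≠ i1}).biUnion (blk i0 i1)
          = {i0, i1, b.1} := by
        rw [Finset.biUnion_insert, Finset.singleton_biUnion, bB, bb, Finset.insert_union,
          Finset.singleton_union]
      have u3 : ({B, a} : Finset {i : Fin m // i ≠ i1}).biUnion (blk i0 i1)
          = {i0, i1, a.1} := by
        rw [Finset.biUnion_insert, Finset.singleton_biUnion, bB, ba, Finset.insert_union,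
          Finset.singleton_union]
      have u4 : ({B, a, b} : Finset {i : Fin m // i ≠ i1}).biUnion (blk i0 i1)
          = {i0, i1, a.1, b.1} := by
        rw [Finset.biUnion_insert, u1, bB, Finset.insert_union, Finset.singleton_union]
      rw [hTψ, triple_sum ψ (fun e => ip g g - ip g (R (e.biUnion (blk i0 i1)) g)),
        map_univ3, q0, q1, q2, u1, u2, u3, u4]
      linarith
    · obtain ⟨x, y, z, hxy, hxz, hyz, rfl⟩ := Finset.card_eq_three.mp hT
      have hxB : x ≠ B := fun h => hBT (by rw [← h]; simp)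
      have hyB : y ≠ B := fun h => hBT (by rw [← h]; simp)
      have hzB : z ≠ B := fun h => hBT (by rw [← h]; simp)
      have hx0 := hne0 x hxB
      have hy0 := hne0 y hyB
      have hz0 := hne0 z hzB
      obtain ⟨ψ, q0, q1, q2⟩ : ∃ ψ : Fin 3 ↪ {i : Fin m // i ≠ i1},
          ψ 0 = x ∧ ψ 1 = y ∧ ψ 2 = z :=
        ⟨⟨![x, y, z], inj3 x y z hxy hxz hyz⟩, rfl, rfl, rfl⟩
      obtain ⟨φ, p0, p1, p2⟩ : ∃ φ : Fin 3 ↪ Fin m, φ 0 = x.1 ∧ φ 1 = y.1 ∧ φ 2 = z.1 :=
        ⟨⟨![x.1, y.1, z.1], inj3 x.1 y.1 z.1 (fun h => hxy (Subtype.ext h))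
          (fun h => hxz (Subtype.ext h)) (fun h => hyz (Subtype.ext h))⟩, rfl, rfl, rfl⟩
      have hφ : ∀ a, φ a ≠ i0 ∧ φ a ≠ i1 := by
        intro a
        rcases fin3_cases a with rfl | rfl | rfl
        · rw [p0]
          exact ⟨hx0, x.2⟩
        · rw [p1]
          exact ⟨hy0, y.2⟩
        · rw [p2]
          exact ⟨hz0, z.2⟩
      have h3 := triple_of_threeRow_E_at φ (hU φ hφ) g
      rw [triple_sum φ (fun p => ip g (R p g)), map_univ3, p0, p1, p2] at h3
      have hT' : ({x, y, z} : Finset {i : Fin m // i ≠ i1}) = (univ : Finset (Fin 3)).map ψ := by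
        rw [map_univ3, q0, q1, q2]
      have bx : blk i0 i1 x = {x.1} := blk_of_ne i0 i1 x hx0
      have by' : blk i0 i1 y = {y.1} := blk_of_ne i0 i1 y hy0
      have bz : blk i0 i1 z = {z.1} := blk_of_ne i0 i1 z hz0
      have u1 : ({y, z} : Finset {i : Fin m // i ≠ i1}).biUnion (blk i0 i1) = {y.1, z.1} := by
        rw [Finset.biUnion_insert, Finset.singleton_biUnion, by', bz, Finset.singleton_union]
      have u2 : ({x, z} : Finset {i : Fin m // i ≠ i1}).biUnion (blk i0 i1) = {x.1, z.1} := by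
        rw [Finset.biUnion_insert, Finset.singleton_biUnion, bx, bz, Finset.singleton_union]
      have u3 : ({x, y} : Finset {i : Fin m // i ≠ i1}).biUnion (blk i0 i1) = {x.1, y.1} := by
        rw [Finset.biUnion_insert, Finset.singleton_biUnion, bx, by', Finset.singleton_union]
      have u4 : ({x, y, z} : Finset {i : Fin m // i ≠ i1}).biUnion (blk i0 i1)
          = {x.1, y.1, z.1} := by
        rw [Finset.biUnion_insert, u1, bx, Finset.singleton_union]
      rw [hT', triple_sum ψ (fun e => ip g g - ip g (R (e.biUnion (blk i0 i1)) g)),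
        map_univ3, q0, q1, q2, u1, u2, u3, u4]
      linarith
  -- from the unions of two blocks to pairs of rows
  have hloc : ∀ e : Finset {i : Fin m // i ≠ i1}, e.card = 2 →
      ip f f - ip f (R (e.biUnion (blk i0 i1)) f)
        ≤ K * ∑ p ∈ (e.biUnion (blk i0 i1)).powersetCard 2, (ip f f - ip f (R p f)) := by
    intro e he
    by_cases hBe : B ∈ e
    · have hc1 : (e.erase B).card = 1 := by rw [Finset.card_erase_of_mem hBe, he]
      obtain ⟨a, hea⟩ := Finset.card_eq_one.mp hc1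
      have haE : a ∈ e.erase B := by rw [hea]; simp
      have haB : a ≠ B := (Finset.mem_erase.mp haE).1
      have ha0 := hne0 a haB
      have he' : e = {B, a} := by rw [← hea, Finset.insert_erase hBe]
      obtain ⟨φ, p0, p1, p2⟩ : ∃ φ : Fin 3 ↪ Fin m, φ 0 = i0 ∧ φ 1 = i1 ∧ φ 2 = a.1 :=
        ⟨⟨![i0, i1, a.1], inj3 i0 i1 a.1 h01 (Ne.symm ha0) (Ne.symm a.2)⟩, rfl, rfl, rfl⟩
      have h3 := crude_transfer φ K (hD φ p0 p1) f
      have hu : e.biUnion (blk i0 i1) = (univ : Finset (Fin 3)).map φ := by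
        rw [he', Finset.biUnion_insert, Finset.singleton_biUnion, bB,
          blk_of_ne i0 i1 a ha0, Finset.insert_union, Finset.singleton_union, map_univ3,
          p0, p1, p2]
      rw [hu, triple_sum φ (fun p => ip f f - ip f (R p f)), map_univ3]
      exact h3
    · obtain ⟨a, b, hab, rfl⟩ := Finset.card_eq_two.mp he
      have haB : a ≠ B := fun h => hBe (by rw [← h]; simp)
      have hbB : b ≠ B := fun h => hBe (by rw [← h]; simp)
      have hab' : a.1 ≠ b.1 := fun h => hab (Subtype.ext h)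
      have hu : ({a, b} : Finset {i : Fin m // i ≠ i1}).biUnion (blk i0 i1) = {a.1, b.1} := by
        rw [Finset.biUnion_insert, Finset.singleton_biUnion, blk_of_ne i0 i1 a (hne0 a haB),
          blk_of_ne i0 i1 b (hne0 b hbB), Finset.singleton_union]
      have hc : ({a.1, b.1} : Finset (Fin m)).card = 2 := Finset.card_pair hab'
      have hps := Finset.powersetCard_self ({a.1, b.1} : Finset (Fin m))
      rw [hc] at hps
      rw [hu, hps, Finset.sum_singleton]
      have hD0 : 0 ≤ ip f f - ip f (R {a.1, b.1} f) := sub_nonneg.mpr (ip_cexp_le _ f)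
      nlinarith
  have h1 := block_hgap r c (blk i0 i1) (blk_disj i0 i1) (blk_cov i0 i1 h01)
    (by rw [hcard]; omega) htriple f
  have h2 := block_refine r c (blk i0 i1) (blk_disj i0 i1) (blk_cov i0 i1 h01) K
    (by linarith) f hloc
  have hcast : (Fintype.card {i : Fin m // i ≠ i1} : ℝ) - 1 = (m : ℝ) - 2 := by
    rw [hcard, Nat.cast_sub (by omega)]
    push_cast
    ring
  rw [hcast] at h2
  exact h1.trans h2

/-- The gap of the heat bath on two-by-two blocks under the hypotheses of `two_fat_hgap`. -/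
theorem two_fat_gap22 {m n : ℕ} (hm : 3 ≤ m) (r : Fin m → ℕ) (c : Fin n → ℕ) (i0 i1 : Fin m)
    (h01 : i0 ≠ i1) (K : ℝ) (hK : 1 ≤ K)
    (hB : ∀ φ : Fin 4 ↪ Fin m, φ 0 = i0 → φ 1 = i1 → ∀ (x0 : CT m n r c)
      (g : CT 4 n (r ∘ φ) (fun j => ∑ a, x0.1 (φ a) j) → ℝ),
      ip g (R {2, 3} g) + ip g (R {0, 1, 3} g) + ip g (R {0, 1, 2} g)
        ≤ 2 * ip g g + ip g (R univ g))
    (hD : ∀ φ : Fin 3 ↪ Fin m, φ 0 = i0 → φ 1 = i1 → ∀ (x0 : CT m n r c)
      (g : CT 3 n (r ∘ φ) (fun j => ∑ a, x0.1 (φ a) j) → ℝ),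
      ip g g - ip g (R univ g)
        ≤ K * ∑ q ∈ (univ : Finset (Fin 3)).powersetCard 2, (ip g g - ip g (R q g)))
    (hU : ∀ φ : Fin 3 ↪ Fin m, (∀ a, φ a ≠ i0 ∧ φ a ≠ i1) → ∀ (x0 : CT m n r c)
      (g : CT 3 n (r ∘ φ) (fun j => ∑ a, x0.1 (φ a) j) → ℝ),
      ∑ q ∈ (univ : Finset (Fin 3)).powersetCard 2, ip g (R q g)
        ≤ 2 * ip g g + ip g (R univ g))
    (f : CT m n r c → ℝ) :
    (1 / (K * ((m : ℝ) - 2))) * (ip f f - ip f (R univ f))
      ≤ ∑ p ∈ (univ : Finset (Fin m)).powersetCard 2,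
          ∑ q ∈ (univ : Finset (Fin n)).powersetCard 2, (ip f f - ip f (E p q f)) := by
  have h1 := two_fat_hgap hm r c i0 i1 h01 K hK hB hD hU f
  have h2 : ∑ p ∈ (univ : Finset (Fin m)).powersetCard 2, (ip f f - ip f (R p f))
      ≤ ∑ p ∈ (univ : Finset (Fin m)).powersetCard 2,
          ∑ q ∈ (univ : Finset (Fin n)).powersetCard 2, (ip f f - ip f (E p q f)) :=
    Finset.sum_le_sum (fun p hp => pair_block_gap p (Finset.mem_powersetCard.mp hp).2 f)
  have hm3 : (3 : ℝ) ≤ (m : ℝ) := by exact_mod_cast hm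
  have hpos : 0 < K * ((m : ℝ) - 2) := by nlinarith
  rw [div_mul_eq_mul_div, one_mul, div_le_iff₀ hpos]
  calc ip f f - ip f (R univ f)
      ≤ K * ((m : ℝ) - 2)
          * ∑ p ∈ (univ : Finset (Fin m)).powersetCard 2, (ip f f - ip f (R p f)) := h1
    _ ≤ K * ((m : ℝ) - 2) * ∑ p ∈ (univ : Finset (Fin m)).powersetCard 2,
          ∑ q ∈ (univ : Finset (Fin n)).powersetCard 2, (ip f f - ip f (E p q f)) :=
        mul_le_mul_of_nonneg_left h2 hpos.le
    _ = (∑ p ∈ (univ : Finset (Fin m)).powersetCard 2,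
          ∑ q ∈ (univ : Finset (Fin n)).powersetCard 2, (ip f f - ip f (E p q f)))
          * (K * ((m : ℝ) - 2)) := mul_comm _ _

/-- The mixing bound for the heat bath on two-by-two blocks under the hypotheses of
`two_fat_hgap`: `m ^ 2 n ^ 2 K (m - 2) (m n log (N + 1) + log (1 / ε))` steps suffice. -/
theorem two_fat_mixing22 {m n : ℕ} (hm : 3 ≤ m) (hn : 2 ≤ n) (r : Fin m → ℕ) (c : Fin n → ℕ)
    (i0 i1 : Fin m) (h01 : i0 ≠ i1) (K : ℝ) (hK : 1 ≤ K)
    (hB : ∀ φ : Fin 4 ↪ Fin m, φ 0 = i0 → φ 1 = i1 → ∀ (x0 : CT m n r c)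
      (g : CT 4 n (r ∘ φ) (fun j => ∑ a, x0.1 (φ a) j) → ℝ),
      ip g (R {2, 3} g) + ip g (R {0, 1, 3} g) + ip g (R {0, 1, 2} g)
        ≤ 2 * ip g g + ip g (R univ g))
    (hD : ∀ φ : Fin 3 ↪ Fin m, φ 0 = i0 → φ 1 = i1 → ∀ (x0 : CT m n r c)
      (g : CT 3 n (r ∘ φ) (fun j => ∑ a, x0.1 (φ a) j) → ℝ),
      ip g g - ip g (R univ g)
        ≤ K * ∑ q ∈ (univ : Finset (Fin 3)).powersetCard 2, (ip g g - ip g (R q g)))
    (hU : ∀ φ : Fin 3 ↪ Fin m, (∀ a, φ a ≠ i0 ∧ φ a ≠ i1) → ∀ (x0 : CT m n r c)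
      (g : CT 3 n (r ∘ φ) (fun j => ∑ a, x0.1 (φ a) j) → ℝ),
      ∑ q ∈ (univ : Finset (Fin 3)).powersetCard 2, ip g (R q g)
        ≤ 2 * ip g g + ip g (R univ g))
    (x : CT m n r c) (ε : ℝ) (hε : 0 < ε) (hε1 : ε ≤ 1) (t : ℕ)
    (ht : (m : ℝ) ^ 2 * (n : ℝ) ^ 2 * (K * ((m : ℝ) - 2)) *
      (m * n * Real.log (((∑ i, r i : ℕ) : ℝ) + 1) + Real.log (1 / ε)) ≤ t) :
    (1 / 2) * ∑ y, |(heatBath22 m n r c ^ t) x y - 1 / (Fintype.card (CT m n r c) : ℝ)| ≤ ε := by
  have hm3 : (3 : ℝ) ≤ (m : ℝ) := by exact_mod_cast hm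
  have hpos : 0 < K * ((m : ℝ) - 2) := by nlinarith
  have h1le : 1 ≤ K * ((m : ℝ) - 2) := by nlinarith
  refine mixing22_of_gap (by omega) hn r c (1 / (K * ((m : ℝ) - 2))) (by positivity)
    (by rw [div_le_one hpos]; exact h1le)
    (fun f => two_fat_gap22 hm r c i0 i1 h01 K hK hB hD hU f) x ε hε hε1 t ?_
  rw [div_div_eq_mul_div, div_one]
  exact ht

end BK

end Vale.Agent.Lib.P328.RP
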