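import Mathlib
import Vale.Agent.Lib.P328.RP.Mixing

/-!
P328: the heat bath that resamples a set of rows drawn from a family of sets of rows, and the
passage from a gap inequality for the family to a bound on the mixing time.

* `blockBath m n r c S` : transition matrix of the chain that draws a set `p` of rows uniformly
  at random from the family `S` and replaces the rows in `p` by a uniformly random admissible
  filling (the other rows are kept).
* `mixing_blockBath_of_gap` : if `κ (⟨f, f⟩ - ⟨f, R univ f⟩) ≤ ∑ p ∈ S, (⟨f, f⟩ - ⟨f, R p f⟩)`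
  for all `f`, with `0 < κ ≤ 1`, then `|S| / κ * (m n log (N + 1) + log (1 / ε))` steps bring
  the chain within total variation distance `ε` of the uniform distribution.
-/

namespace Vale.Agent.Lib.P328.RP

open Finset
open Vale.Agent.Lib.P335.Bip
open Vale.Agent.Lib.P335.H48

/-- Transition matrix of the heat bath on `CT m n r c` for a family `S` of sets of rows: a set
`p` of rows is drawn uniformly at random from `S`, and the current table `x` is replaced by a
uniformly random table among those that agree with `x` in every row outside `p`. -/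
noncomputable def blockBath (m n : ℕ) (r : Fin m → ℕ) (c : Fin n → ℕ)
    (S : Finset (Finset (Fin m))) : Matrix (CT m n r c) (CT m n r c) ℝ :=
  fun x y => (∑ p ∈ S, if y ∈ fibre p x then 1 / ((fibre p x).card : ℝ) else 0) / (S.card : ℝ)

namespace BlockBath

open Mixing

variable {m n : ℕ} {r : Fin m → ℕ} {c : Fin n → ℕ}

theorem blockBath_symm (S : Finset (Finset (Fin m))) (x y : CT m n r c) :
    blockBath m n r c S x y = blockBath m n r c S y x := by
  unfold blockBath
  congr 1
  refine Finset.sum_congr rfl (fun p _ => ?_)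
  by_cases h : y ∈ fibre p x
  · rw [if_pos h, if_pos ((mem_fibre_comm p x y).mp h), fibre_eq_of_mem p h]
  · rw [if_neg h, if_neg (fun h' => h ((mem_fibre_comm p x y).mpr h'))]

theorem app_blockBath (S : Finset (Finset (Fin m))) (f : CT m n r c → ℝ) (x : CT m n r c) :
    app (blockBath m n r c S) f x = (∑ p ∈ S, R p f x) / (S.card : ℝ) := by
  classical
  unfold app blockBath
  simp only [div_mul_eq_mul_div]
  rw [← Finset.sum_div]
  congr 1
  simp only [Finset.sum_mul]
  rw [Finset.sum_comm]
  refine Finset.sum_congr rfl (fun p _ => ?_)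
  rw [R_apply_fibre]
  simp only [ite_mul, zero_mul]
  rw [Finset.sum_ite_mem, Finset.univ_inter, Finset.sum_div]
  refine Finset.sum_congr rfl (fun y _ => ?_)
  ring

theorem card_pos {S : Finset (Finset (Fin m))} (hS : S.Nonempty) : (0 : ℝ) < (S.card : ℝ) := by
  exact_mod_cast Finset.card_pos.mpr hS

theorem blockBath_row_sum {S : Finset (Finset (Fin m))} (hS : S.Nonempty) (x : CT m n r c) :
    ∑ y, blockBath m n r c S x y = 1 := by
  have h1 := app_blockBath S (fun _ : CT m n r c => (1 : ℝ)) x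
  unfold app at h1
  simp only [mul_one] at h1
  rw [h1]
  simp only [R_one]
  rw [Finset.sum_const, nsmul_eq_mul, mul_one]
  exact div_self (card_pos hS).ne'

theorem bil_blockBath (S : Finset (Finset (Fin m))) (f : CT m n r c → ℝ) :
    bil (blockBath m n r c S) f f = (∑ p ∈ S, ip f (R p f)) / (S.card : ℝ) := by
  rw [bil_eq]
  simp only [app_blockBath, mul_div_assoc']
  rw [← Finset.sum_div]
  congr 1
  simp only [Finset.mul_sum]
  rw [Finset.sum_comm]
  rfl

theorem bil_blockBath_nonneg (S : Finset (Finset (Fin m))) (f : CT m n r c → ℝ) :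
    0 ≤ bil (blockBath m n r c S) f f := by
  rw [bil_blockBath]
  exact div_nonneg (Finset.sum_nonneg (fun p _ => ip_cexp_self_nonneg _ f)) (Nat.cast_nonneg _)

theorem bil_blockBath_gap {S : Finset (Finset (Fin m))} (hS : S.Nonempty) (κ : ℝ)
    (hgap : ∀ f : CT m n r c → ℝ, κ * (ip f f - ip f (R univ f))
      ≤ ∑ p ∈ S, (ip f f - ip f (R p f)))
    (f : CT m n r c → ℝ) (hf : ∑ x, f x = 0) :
    bil (blockBath m n r c S) f f ≤ (1 - κ / (S.card : ℝ)) * ∑ x, f x ^ 2 := by
  have hC := card_pos hS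
  have hmean : R (univ : Finset (Fin m)) f = 0 := by
    funext x
    rw [R_univ_apply, hf, zero_div]
    rfl
  have h1 := hgap f
  rw [hmean, ip_zero_right, sub_zero, Finset.sum_sub_distrib, Finset.sum_const,
    nsmul_eq_mul] at h1
  rw [bil_blockBath, ← ip_eq_sum_sq, div_le_iff₀ hC]
  have h2 : (1 - κ / (S.card : ℝ)) * ip f f * (S.card : ℝ)
      = (S.card : ℝ) * ip f f - κ * ip f f := by
    field_simp
  rw [h2]
  linarith

end BlockBath

open BlockBath in
/-- Decay of the distance to the uniform distribution for the heat bath of a family `S` of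
sets of rows, given a gap with constant `κ`. -/
theorem l1_decay_blockBath {m n : ℕ} (r : Fin m → ℕ) (c : Fin n → ℕ)
    {S : Finset (Finset (Fin m))} (hS : S.Nonempty) (κ : ℝ) (hκ : κ ≤ (S.card : ℝ))
    (hgap : ∀ f : CT m n r c → ℝ, κ * (ip f f - ip f (R univ f))
      ≤ ∑ p ∈ S, (ip f f - ip f (R p f)))
    (t : ℕ) (x : CT m n r c) :
    ∑ y, |(blockBath m n r c S ^ t) x y - 1 / (Fintype.card (CT m n r c) : ℝ)|
      ≤ Real.sqrt (Fintype.card (CT m n r c)) * (1 - κ / (S.card : ℝ)) ^ t := by
  have hC := card_pos hS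
  refine l1_le_of_poincare (blockBath m n r c S) (blockBath_symm S) (blockBath_row_sum hS)
    (bil_blockBath_nonneg S) (κ / (S.card : ℝ)) ?_ (bil_blockBath_gap hS κ hgap) t x
  rw [div_le_one hC]
  exact hκ

open Mixing BlockBath in
/-- **From a gap to mixing, for the heat bath of a family of sets of rows.**  If the variance
times `κ` (`0 < κ ≤ 1`) is at most the sum over the family `S` of the Dirichlet forms of the
resamplings, then `|S| / κ * (m n log (N + 1) + log (1 / ε))` steps suffice. -/
theorem mixing_blockBath_of_gap {m n : ℕ} (r : Fin m → ℕ) (c : Fin n → ℕ)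
    {S : Finset (Finset (Fin m))} (hS : S.Nonempty) (κ : ℝ) (hκ0 : 0 < κ) (hκ1 : κ ≤ 1)
    (hgap : ∀ f : CT m n r c → ℝ, κ * (ip f f - ip f (R univ f))
      ≤ ∑ p ∈ S, (ip f f - ip f (R p f)))
    (x : CT m n r c) (ε : ℝ) (hε : 0 < ε) (hε1 : ε ≤ 1) (t : ℕ)
    (ht : (S.card : ℝ) / κ *
      (m * n * Real.log (((∑ i, r i : ℕ) : ℝ) + 1) + Real.log (1 / ε)) ≤ t) :
    (1 / 2) * ∑ y, |(blockBath m n r c S ^ t) x y - 1 / (Fintype.card (CT m n r c) : ℝ)|
      ≤ ε := by
  have hC := card_pos hS
  have hC1 : (1 : ℝ) ≤ (S.card : ℝ) := by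
    exact_mod_cast Finset.card_pos.mpr hS
  have hdecay := l1_decay_blockBath r c hS κ (hκ1.trans hC1) hgap t x
  set CC : ℝ := (S.card : ℝ) with hCCdef
  set L : ℝ := Real.log (((∑ i, r i : ℕ) : ℝ) + 1) with hL
  have hN1 : (1 : ℝ) ≤ ((∑ i, r i : ℕ) : ℝ) + 1 := by
    have : (0 : ℝ) ≤ ((∑ i, r i : ℕ) : ℝ) := Nat.cast_nonneg _
    linarith
  have hL0 : 0 ≤ L := Real.log_nonneg hN1
  have hlogε : 0 ≤ Real.log (1 / ε) := by
    apply Real.log_nonneg
    rw [le_div_iff₀ hε]
    linarith
  set X : ℝ := (m : ℝ) * n * L + Real.log (1 / ε) with hX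
  have hX0 : 0 ≤ X := by
    have : 0 ≤ (m : ℝ) * n * L := by positivity
    linarith
  have hcard1 : (1 : ℝ) ≤ (Fintype.card (CT m n r c) : ℝ) := by
    have : 0 < Fintype.card (CT m n r c) := Fintype.card_pos_iff.mpr ⟨x⟩
    exact_mod_cast this
  have hcard : (Fintype.card (CT m n r c) : ℝ) ≤ Real.exp ((m : ℝ) * n * L) := by
    have h1 : (Fintype.card (CT m n r c) : ℝ) ≤ (((∑ i, r i : ℕ) : ℝ) + 1) ^ (m * n) := by
      exact_mod_cast (card_CT_le (m := m) (n := n) (r := r) (c := c))
    refine h1.trans (le_of_eq ?_)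
    have h2 : (m : ℝ) * n * L = ((m * n : ℕ) : ℝ) * L := by push_cast; ring
    rw [h2, Real.exp_nat_mul, hL, Real.exp_log (by linarith)]
  have hsqrt : Real.sqrt (Fintype.card (CT m n r c)) ≤ Real.exp ((m : ℝ) * n * L) := by
    refine le_trans ?_ hcard
    rw [Real.sqrt_le_left (by linarith)]
    nlinarith
  have hγ1 : κ / CC ≤ 1 := by
    rw [div_le_one hC]
    exact hκ1.trans hC1
  have hbase0 : 0 ≤ 1 - κ / CC := by linarith
  have hpow : (1 - κ / CC) ^ t ≤ Real.exp (-((t : ℝ) * (κ / CC))) := by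
    have h1 : (1 - κ / CC) ^ t ≤ Real.exp (-(κ / CC)) ^ t :=
      pow_le_pow_left₀ hbase0 (Real.one_sub_le_exp_neg _) t
    refine h1.trans (le_of_eq ?_)
    rw [← Real.exp_nat_mul]
    congr 1
    ring
  have htC : X ≤ (t : ℝ) * (κ / CC) := by
    have h3 : CC / κ * X ≤ t := ht
    have h4 : X = CC / κ * X * (κ / CC) := by
      field_simp
    rw [h4]
    exact mul_le_mul_of_nonneg_right h3 (div_nonneg hκ0.le hC.le)
  have hfin : Real.sqrt (Fintype.card (CT m n r c)) * (1 - κ / CC) ^ t ≤ ε := by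
    calc Real.sqrt (Fintype.card (CT m n r c)) * (1 - κ / CC) ^ t
        ≤ Real.exp ((m : ℝ) * n * L) * Real.exp (-((t : ℝ) * (κ / CC))) :=
          mul_le_mul hsqrt hpow (pow_nonneg hbase0 t) (Real.exp_pos _).le
      _ = Real.exp ((m : ℝ) * n * L - (t : ℝ) * (κ / CC)) := by
          rw [← Real.exp_add]
          congr 1
      _ ≤ Real.exp (-Real.log (1 / ε)) := by
          apply Real.exp_le_exp.mpr
          rw [hX] at htC
          linarith
      _ = ε := by
          rw [one_div, Real.log_inv, neg_neg, Real.exp_log hε]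
  linarith

end Vale.Agent.Lib.P328.RP
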