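import Mathlib
import Vale.Agent.Lib.P328.RP.ThreeProj

/-!
P328: the three-projection inequality for arrays with prescribed column sums only.

* `CPI.threeProj_of_subsingleton` : the inequality on a type with at most one element.
* `CPI.Comp3 k` : the ways of writing `k` as an ordered sum of three natural numbers.
* `CPI.threeProj_comp3` : the inequality for the three coordinates of `Comp3 k` (from the
  three-row inequality for `3 × 2` tables).
* `CPI.consEquiv` : an array with `n + 1` columns is a first column and an array with `n`
  columns.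
* `CPI.threeProj_CP_of` : given the product lemma for the three-projection inequality (as a
  hypothesis), the inequality holds for the three rows of the arrays `CP n d`, for all `n`
  and `d`.
-/

namespace Vale.Agent.Lib.P328.RP

open Finset
open Vale.Agent.Lib.P335.Bip

namespace CPI

/-- The three-projection inequality on a type with at most one element. -/
theorem threeProj_of_subsingleton {Ω K : Type*} [Fintype Ω] [DecidableEq K] [Subsingleton Ω]
    (κ : Fin 3 → Ω → K) : ThreeProj κ := by
  intro g
  have h1 : ∀ i, ip g (cexp (κ i) g) ≤ ip g g := fun i => ip_cexp_le (κ i) g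
  have h2 : ip g g ≤ (∑ x, g x) ^ 2 / (Fintype.card Ω : ℝ) := by
    rcases isEmpty_or_nonempty Ω with hE | ⟨⟨x0⟩⟩
    · simp [ip]
    · have hu : (univ : Finset Ω) = {x0} := by
        ext y
        simp [Subsingleton.elim y x0]
      have hc : Fintype.card Ω = 1 := by
        rw [← Finset.card_univ, hu, Finset.card_singleton]
      unfold ip
      rw [hc, hu, Finset.sum_singleton, Finset.sum_singleton]
      simp only [Nat.cast_one, div_one]
      exact le_of_eq (by ring)
  rw [Fin.sum_univ_three]
  linarith [h1 0, h1 1, h1 2]

/-- The ways of writing `k` as an ordered sum of three natural numbers. -/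
abbrev Comp3 (k : ℕ) : Type := {a : Fin 3 → ℕ // ∑ i, a i = k}

theorem Comp3_entry_le {k : ℕ} (a : Comp3 k) (i : Fin 3) : a.1 i ≤ k :=
  calc a.1 i ≤ ∑ i, a.1 i :=
        Finset.single_le_sum (f := fun i => a.1 i) (fun _ _ => Nat.zero_le _)
          (Finset.mem_univ i)
    _ = k := a.2

instance instFiniteComp3 (k : ℕ) : Finite (Comp3 k) := by
  apply Finite.of_injective (fun a : Comp3 k => fun (i : Fin 3) =>
    (⟨a.1 i, Nat.lt_succ_of_le (Comp3_entry_le a i)⟩ : Fin (k + 1)))
  intro x y h
  apply Subtype.ext
  funext i
  exact Fin.mk.inj (congrFun h i)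

noncomputable instance instFintypeComp3 (k : ℕ) : Fintype (Comp3 k) :=
  Fintype.ofFinite _

/-- Row sums of the `3 × 2` tables that encode `Comp3 k`. -/
def rowsOf (k : ℕ) : Fin 3 → ℕ := fun _ => k

/-- Column sums of the `3 × 2` tables that encode `Comp3 k`. -/
def colsOf (k : ℕ) : Fin 2 → ℕ := fun j => if j = 0 then k else 2 * k

/-- A `3 × 2` table with all row sums `k` and column sums `k`, `2 k` is its first column. -/
def tableEquiv (k : ℕ) : CT 3 2 (rowsOf k) (colsOf k) ≃ Comp3 k where
  toFun x := ⟨fun i => x.1 i 0, by
    have h := x.2.2 0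
    simpa [colsOf] using h⟩
  invFun a := ⟨fun i j => if j = 0 then a.1 i else k - a.1 i, by
    constructor
    · intro i
      have hle := Comp3_entry_le a i
      rw [Fin.sum_univ_two]
      simp only [rowsOf]
      simp
      omega
    · intro j
      have h0 := Comp3_entry_le a 0
      have h1 := Comp3_entry_le a 1
      have h2 := Comp3_entry_le a 2
      have hs := a.2
      rw [Fin.sum_univ_three] at hs
      rw [Fin.sum_univ_three]
      fin_cases j
      · simp [colsOf]
        exact hs
      · simp [colsOf]
        omega⟩
  left_inv x := by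
    apply Subtype.ext
    funext i j
    have hr := x.2.1 i
    rw [Fin.sum_univ_two] at hr
    simp only [rowsOf] at hr
    fin_cases j
    · simp
    · simp
      omega
  right_inv a := by
    apply Subtype.ext
    funext i
    simp

/-- The three-projection inequality for the three coordinates of `Comp3 k`. -/
theorem threeProj_comp3 (k : ℕ) : ThreeProj (fun (i : Fin 3) (a : Comp3 k) => a.1 i) := by
  have h0 : ThreeProj (fun (l : Fin 3) (x : CT 3 2 (rowsOf k) (colsOf k)) => x.1 l) :=
    (threeRow_iff_threeProj (rowsOf k) (colsOf k)).mp (threeRow_two_cols (rowsOf k) (colsOf k))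
  refine threeProj_equiv (tableEquiv k) _ _ ?_ h0
  intro i x y
  constructor
  · intro h
    have h' : x.1 i 0 = y.1 i 0 := h
    have hx := x.2.1 i
    have hy := y.2.1 i
    rw [Fin.sum_univ_two] at hx hy
    funext j
    fin_cases j
    · exact h'
    · show x.1 i 1 = y.1 i 1
      omega
  · intro h
    show x.1 i 0 = y.1 i 0
    rw [show x.1 i = y.1 i from h]

/-- An array with `n + 1` columns is a first column together with an array of `n` columns. -/
def consEquiv {n : ℕ} (d : Fin (n + 1) → ℕ) :
    Comp3 (d 0) × CP n (fun j => d j.succ) ≃ CP (n + 1) d where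
  toFun p := ⟨fun j => Fin.cases (motive := fun _ => Fin 3 → ℕ) p.1.1 (fun j' => p.2.1 j') j, by
    intro j
    refine Fin.cases ?_ (fun j' => ?_) j
    · exact p.1.2
    · exact p.2.2 j'⟩
  invFun y := (⟨y.1 0, y.2 0⟩, ⟨fun j => y.1 j.succ, fun j => y.2 j.succ⟩)
  left_inv p := by
    apply Prod.ext
    · apply Subtype.ext
      rfl
    · apply Subtype.ext
      rfl
  right_inv y := by
    apply Subtype.ext
    funext j
    refine Fin.cases ?_ (fun j' => ?_) j
    · rfl
    · rfl

instance instSubsingletonCP0 (d : Fin 0 → ℕ) : Subsingleton (CP 0 d) :=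
  ⟨fun _ _ => Subtype.ext (funext (fun j => j.elim0))⟩

/-- Given the product lemma for the three-projection inequality, the inequality holds for
the three rows of the arrays with prescribed column sums, for every number of columns. -/
theorem threeProj_CP_of
    (hprod : ∀ (A B KA KB : Type) [Fintype A] [Fintype B] [DecidableEq KA] [DecidableEq KB]
      (kA : Fin 3 → A → KA) (kB : Fin 3 → B → KB), ThreeProj kA → ThreeProj kB →
      ThreeProj (fun i (p : A × B) => (kA i p.1, kB i p.2))) :
    ∀ (n : ℕ) (d : Fin n → ℕ), ThreeProj (fun (i : Fin 3) (y : CP n d) => fun j => y.1 j i)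
  | 0, d => threeProj_of_subsingleton _
  | n + 1, d => by
    have ih := threeProj_CP_of hprod n (fun j => d j.succ)
    have hp := hprod _ _ _ _ (fun (i : Fin 3) (a : Comp3 (d 0)) => a.1 i)
      (fun (i : Fin 3) (y : CP n (fun j => d j.succ)) => fun j => y.1 j i)
      (threeProj_comp3 (d 0)) ih
    refine threeProj_equiv (consEquiv d) _ _ ?_ hp
    intro i p p'
    constructor
    · intro h
      apply Prod.ext
      · exact congrFun h 0
      · funext j
        exact congrFun h j.succ
    · intro h
      have h1 : p.1.1 i = p'.1.1 i := congrArg Prod.fst h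
      have h2 : (fun j => p.2.1 j i) = (fun j => p'.2.1 j i) := congrArg Prod.snd h
      funext j
      refine Fin.cases ?_ (fun j' => ?_) j
      · exact h1
      · exact congrFun h2 j'

end CPI

end Vale.Agent.Lib.P328.RP
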