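import Mathlib
import Vale.Agent.Lib.P328.helper28.BlockBath

/-!
P328: the family of row sets of the block chain for a block `B` of rows, and its mixing bound
from the block gap inequality.

* `fatFamily B` : the sets `insert a B` for the rows `a` outside `B`, and the two-element sets
  of rows outside `B`.
* `sum_fatFamily` : a sum over the family splits into these two parts.
* `card_fatFamily_le` : the family has at most `m ^ 2` members.
* `mixing_fat_of_hgap` : if the variance is at most the sum over the family of the Dirichlet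
  forms of the resamplings, then `m ^ 2 (m n log (N + 1) + log (1 / ε))` steps of
  `blockBath m n r c (fatFamily B)` suffice.
-/

namespace Vale.Agent.Lib.P328.RP

open Finset
open Vale.Agent.Lib.P335.Bip

/-- The row sets of the block chain for the block `B`: the block together with one row outside
it, and the two-element sets of rows outside it. -/
def fatFamily {m : ℕ} (B : Finset (Fin m)) : Finset (Finset (Fin m)) :=
  (Bᶜ).image (fun a => insert a B) ∪ (Bᶜ).powersetCard 2

namespace FatFamily

variable {m : ℕ}

theorem insert_injOn (B : Finset (Fin m)) :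
    Set.InjOn (fun a => insert a B) (↑(Bᶜ) : Set (Fin m)) := by
  intro a ha a' _ h
  have haB : a ∉ B := Finset.mem_compl.mp (Finset.mem_coe.mp ha)
  have h1 : a ∈ insert a' B := by
    have h2 : insert a B = insert a' B := h
    rw [← h2]
    exact Finset.mem_insert_self a B
  rcases Finset.mem_insert.mp h1 with h3 | h3
  · exact h3
  · exact absurd h3 haB

theorem disjoint_parts (B : Finset (Fin m)) :
    Disjoint ((Bᶜ).image (fun a => insert a B)) ((Bᶜ).powersetCard 2) := by
  rw [Finset.disjoint_left]
  intro p hp hp2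
  obtain ⟨a, ha, rfl⟩ := Finset.mem_image.mp hp
  obtain ⟨hsub, hcard⟩ := Finset.mem_powersetCard.mp hp2
  have haB : a ∉ B := Finset.mem_compl.mp ha
  have hB : B = ∅ := by
    rw [Finset.eq_empty_iff_forall_notMem]
    intro i hi
    have h1 : i ∈ Bᶜ := hsub (Finset.mem_insert_of_mem hi)
    exact (Finset.mem_compl.mp h1) hi
  rw [hB] at hcard
  simp at hcard

/-- A sum over the family: the sets `insert a B`, and the pairs of rows outside `B`. -/
theorem sum_fatFamily (B : Finset (Fin m)) (F : Finset (Fin m) → ℝ) :
    ∑ p ∈ fatFamily B, F p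
      = ∑ a ∈ Bᶜ, F (insert a B) + ∑ q ∈ (Bᶜ).powersetCard 2, F q := by
  unfold fatFamily
  rw [Finset.sum_union (disjoint_parts B), Finset.sum_image (insert_injOn B)]

theorem card_fatFamily (B : Finset (Fin m)) :
    (fatFamily B).card = (Bᶜ).card + ((Bᶜ).card).choose 2 := by
  unfold fatFamily
  rw [Finset.card_union_of_disjoint (disjoint_parts B),
    Finset.card_image_of_injOn (insert_injOn B), Finset.card_powersetCard]

theorem add_choose_two_le (k : ℕ) : k + k.choose 2 ≤ k ^ 2 := by
  rw [Nat.choose_two_right]
  rcases Nat.eq_zero_or_pos k with h0 | hpos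
  · rw [h0]
    simp
  · have h2 : k * (k - 1) / 2 ≤ k * (k - 1) := Nat.div_le_self _ _
    have h3 : k + k * (k - 1) = k ^ 2 := by
      obtain ⟨j, rfl⟩ : ∃ j, k = j + 1 := ⟨k - 1, by omega⟩
      simp only [Nat.add_sub_cancel]
      ring
    omega

theorem card_fatFamily_le (B : Finset (Fin m)) : (fatFamily B).card ≤ m ^ 2 := by
  rw [card_fatFamily]
  have hk : (Bᶜ).card ≤ m := by
    have := Finset.card_le_univ (Bᶜ)
    rwa [Fintype.card_fin] at this
  exact (add_choose_two_le _).trans (Nat.pow_le_pow_left hk 2)

theorem fatFamily_nonempty {B : Finset (Fin m)} (hne : B ≠ univ) : (fatFamily B).Nonempty := by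
  obtain ⟨a, ha⟩ : ∃ a, a ∉ B := by
    by_contra hcon
    exact hne (Finset.eq_univ_iff_forall.mpr (fun a => by_contra (fun ha => hcon ⟨a, ha⟩)))
  refine ⟨insert a B, ?_⟩
  unfold fatFamily
  exact Finset.mem_union_left _
    (Finset.mem_image.mpr ⟨a, Finset.mem_compl.mpr ha, rfl⟩)

end FatFamily

open FatFamily in
/-- **Mixing of the block chain for a block `B` of rows, from the block gap inequality.**
The chain draws uniformly at random either a row `a` outside `B` (and resamples the rows
`B ∪ {a}`) or a pair of rows outside `B` (and resamples the two rows).  If the variance is at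
most the sum of the Dirichlet forms of these resamplings, then
`m ^ 2 (m n log (N + 1) + log (1 / ε))` steps suffice. -/
theorem mixing_fat_of_hgap {m n : ℕ} (r : Fin m → ℕ) (c : Fin n → ℕ) (B : Finset (Fin m))
    (hne : B ≠ univ)
    (hgap : ∀ f : CT m n r c → ℝ, ip f f - ip f (R univ f)
      ≤ ∑ a ∈ Bᶜ, (ip f f - ip f (R (insert a B) f))
        + ∑ q ∈ (Bᶜ).powersetCard 2, (ip f f - ip f (R q f)))
    (x : CT m n r c) (ε : ℝ) (hε : 0 < ε) (hε1 : ε ≤ 1) (t : ℕ)
    (ht : (m : ℝ) ^ 2 *
      (m * n * Real.log (((∑ i, r i : ℕ) : ℝ) + 1) + Real.log (1 / ε)) ≤ t) :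
    (1 / 2) * ∑ y, |(blockBath m n r c (fatFamily B) ^ t) x y
      - 1 / (Fintype.card (CT m n r c) : ℝ)| ≤ ε := by
  refine mixing_blockBath_of_gap r c (fatFamily_nonempty hne) 1 one_pos le_rfl ?_ x ε hε hε1 t ?_
  · intro f
    rw [one_mul, sum_fatFamily B (fun p => ip f f - ip f (R p f))]
    exact hgap f
  · refine le_trans ?_ ht
    have hA : 0 ≤ (m : ℝ) * n * Real.log (((∑ i, r i : ℕ) : ℝ) + 1) + Real.log (1 / ε) := by
      have h1 : 0 ≤ Real.log (((∑ i, r i : ℕ) : ℝ) + 1) := by
        apply Real.log_nonneg
        have : (0 : ℝ) ≤ ((∑ i, r i : ℕ) : ℝ) := Nat.cast_nonneg _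
        linarith
      have h2 : 0 ≤ Real.log (1 / ε) := by
        apply Real.log_nonneg
        rw [le_div_iff₀ hε]
        linarith
      have h3 : 0 ≤ (m : ℝ) * n := by positivity
      have := mul_nonneg h3 h1
      linarith
    rw [div_one]
    apply mul_le_mul_of_nonneg_right _ hA
    exact_mod_cast card_fatFamily_le B

end Vale.Agent.Lib.P328.RP
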