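import Mathlib
import Vale.Agent.Lib.P328.helper28.FatFamily

/-!
P328: the block heat bath for a block `B` of rows, written out as one explicit transition
matrix, and its mixing bound from the block gap inequality.

* `fatBath m n r c B` : a move is drawn uniformly at random among the rows `a` outside `B`
  (then the rows in `B ∪ {a}` are resampled uniformly given the other rows) and the
  two-element sets `q` of rows outside `B` (then the two rows in `q` are resampled).
* `fatBath_eq_blockBath` : it is the heat bath of the family `fatFamily B`.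
* `mixing_fatBath_of_hgap` : `m ^ 2 (m n log (N + 1) + log (1 / ε))` steps suffice, given the
  block gap inequality.
-/

namespace Vale.Agent.Lib.P328.RP

open Finset
open Vale.Agent.Lib.P335.Bip

/-- Transition matrix of the block heat bath on `CT m n r c` for a block `B` of rows.  A move
is drawn uniformly at random among the rows `a` outside `B` and the two-element sets `q` of
rows outside `B`.  For a row `a` the current table `x` is replaced by a uniformly random table
among those that agree with `x` in every row outside `B ∪ {a}`; for a pair `q` it is replaced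
by a uniformly random table among those that agree with `x` in every row outside `q`. -/
noncomputable def fatBath (m n : ℕ) (r : Fin m → ℕ) (c : Fin n → ℕ) (B : Finset (Fin m)) :
    Matrix (CT m n r c) (CT m n r c) ℝ :=
  fun x y =>
    ((∑ a ∈ Bᶜ, if y ∈ fibre (insert a B) x then 1 / ((fibre (insert a B) x).card : ℝ) else 0)
      + ∑ q ∈ (Bᶜ).powersetCard 2, if y ∈ fibre q x then 1 / ((fibre q x).card : ℝ) else 0)
      / (((Bᶜ).card : ℝ) + (((Bᶜ).card).choose 2 : ℝ))

open FatFamily in
theorem fatBath_eq_blockBath (m n : ℕ) (r : Fin m → ℕ) (c : Fin n → ℕ) (B : Finset (Fin m)) :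
    fatBath m n r c B = blockBath m n r c (fatFamily B) := by
  funext x y
  unfold fatBath blockBath
  rw [sum_fatFamily B (fun p => if y ∈ fibre p x then 1 / ((fibre p x).card : ℝ) else 0),
    card_fatFamily]
  push_cast
  rfl

/-- **Mixing of the block heat bath for a block `B` of rows, from the block gap inequality.** -/
theorem mixing_fatBath_of_hgap {m n : ℕ} (r : Fin m → ℕ) (c : Fin n → ℕ) (B : Finset (Fin m))
    (hne : B ≠ univ)
    (hgap : ∀ f : CT m n r c → ℝ, ip f f - ip f (R univ f)
      ≤ ∑ a ∈ Bᶜ, (ip f f - ip f (R (insert a B) f))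
        + ∑ q ∈ (Bᶜ).powersetCard 2, (ip f f - ip f (R q f)))
    (x : CT m n r c) (ε : ℝ) (hε : 0 < ε) (hε1 : ε ≤ 1) (t : ℕ)
    (ht : (m : ℝ) ^ 2 *
      (m * n * Real.log (((∑ i, r i : ℕ) : ℝ) + 1) + Real.log (1 / ε)) ≤ t) :
    (1 / 2) * ∑ y, |(fatBath m n r c B ^ t) x y
      - 1 / (Fintype.card (CT m n r c) : ℝ)| ≤ ε := by
  rw [fatBath_eq_blockBath]
  exact mixing_fat_of_hgap r c B hne hgap x ε hε hε1 t ht

end Vale.Agent.Lib.P328.RP
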