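import Mathlib
import Vale.Agent.Lib.P328.helper72.FatBlockMixing
import Vale.Agent.Lib.P328.helper50.NcqCount
import Vale.Agent.Lib.P328.helper28.FatBath

/-!
P328: a block of arbitrarily many arbitrary rows and rows of sum at most one, arbitrary column
sums: the block heat bath mixes in `m ^ 2 (m n log (N + 1) + log (1 / ε))` steps, with no
hypothesis.

* `ncq_all` : the rank-one bound `UnitRows.NCq` for the numbers of tables with column sums
  `c - e_j - e_l` (from the transfer step `NCq.lorF_transfer` and the identification of the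
  iterated transfers with the counts, `Ncq.ncq_count_of_step`).
* `mixing_fat_block` : the mixing bound for `blockBath m n r c (fatFamily B)`.
* `mixing_fatBath` : the same for the explicit transition matrix `fatBath m n r c B`.
-/

namespace Vale.Agent.Lib.P328.RP

open Finset
open Vale.Agent.Lib.P335.Bip

/-- The matrix of the numbers of tables with row sums `r` and column sums `c - e_j - e_l` has
at most one positive eigenvalue, for any number of rows. -/
theorem ncq_all : UnitRows.NCq := by
  intro q n r c v
  exact Vale.Agent.Lib.P328.Ncq.ncq_count_of_step (κ := Fin q)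
    (fun a b hab F hF => Vale.Agent.Lib.P328.NCq.lorF_transfer a b hab F hF) r c v

/-- **A block of arbitrary rows and rows of sum at most one, arbitrary column sums.**  If every
row outside the block `B` has sum at most one and `B` is not the set of all rows, then
`m ^ 2 (m n log (N + 1) + log (1 / ε))` steps of the block chain suffice. -/
theorem mixing_fat_block {m n : ℕ} (r : Fin m → ℕ) (c : Fin n → ℕ)
    (B : Finset (Fin m)) (hB : ∀ i, i ∉ B → r i ≤ 1) (hne : B ≠ univ)
    (x : CT m n r c) (ε : ℝ) (hε : 0 < ε) (hε1 : ε ≤ 1) (t : ℕ)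
    (ht : (m : ℝ) ^ 2 *
      (m * n * Real.log (((∑ i, r i : ℕ) : ℝ) + 1) + Real.log (1 / ε)) ≤ t) :
    (1 / 2) * ∑ y, |(blockBath m n r c (fatFamily B) ^ t) x y
      - 1 / (Fintype.card (CT m n r c) : ℝ)| ≤ ε :=
  mixing_fat_of_ncq ncq_all r c B hB hne x ε hε hε1 t ht

/-- The same for the explicit transition matrix `fatBath m n r c B`. -/
theorem mixing_fatBath {m n : ℕ} (r : Fin m → ℕ) (c : Fin n → ℕ)
    (B : Finset (Fin m)) (hB : ∀ i, i ∉ B → r i ≤ 1) (hne : B ≠ univ)
    (x : CT m n r c) (ε : ℝ) (hε : 0 < ε) (hε1 : ε ≤ 1) (t : ℕ)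
    (ht : (m : ℝ) ^ 2 *
      (m * n * Real.log (((∑ i, r i : ℕ) : ℝ) + 1) + Real.log (1 / ε)) ≤ t) :
    (1 / 2) * ∑ y, |(fatBath m n r c B ^ t) x y
      - 1 / (Fintype.card (CT m n r c) : ℝ)| ≤ ε := by
  rw [fatBath_eq_blockBath]
  exact mixing_fat_block r c B hB hne x ε hε hε1 t ht

end Vale.Agent.Lib.P328.RP
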