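import Mathlib
import Vale.Agent.Lib.P328.helper28.BlockFamily
import Vale.Agent.Lib.P328.helper48.UnitDual

/-!
P328: two arbitrary rows and small rows, all column sums: the family statement, with the
four-row inequality and the three-row gap inequality as hypotheses in their general form.

* `BK.two_fat_family_hgap` : the gap inequality for the row-pair resamplings for all
  `m × n` tables in which all rows except two have sum at most one.
* `BK.two_fat_family_mixing22` : the mixing bound for the heat bath on two-by-two blocks.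
-/

namespace Vale.Agent.Lib.P328.RP

open Finset
open Vale.Agent.Lib.P335.Bip

namespace BK

/-- **All rows except two have sum at most one, any column sums: the gap inequality.**
`hFour` is the four-row inequality for two arbitrary rows and two rows of sum at most one,
`hCrude` a gap inequality with constant `K` for three rows one of which has sum at most
one. -/
theorem two_fat_family_hgap {n : ℕ} (K : ℝ) (hK : 1 ≤ K)
    (hFour : ∀ (r4 : Fin 4 → ℕ) (c4 : Fin n → ℕ), r4 2 ≤ 1 → r4 3 ≤ 1 →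
      ∀ g : CT 4 n r4 c4 → ℝ,
      ip g (R {2, 3} g) + ip g (R {0, 1, 3} g) + ip g (R {0, 1, 2} g)
        ≤ 2 * ip g g + ip g (R univ g))
    (hCrude : ∀ (r3 : Fin 3 → ℕ) (c3 : Fin n → ℕ), r3 2 ≤ 1 → ∀ g : CT 3 n r3 c3 → ℝ,
      ip g g - ip g (R univ g)
        ≤ K * ∑ q ∈ (univ : Finset (Fin 3)).powersetCard 2, (ip g g - ip g (R q g)))
    {m : ℕ} (hm : 3 ≤ m) (r : Fin m → ℕ) (c : Fin n → ℕ) (i0 i1 : Fin m) (h01 : i0 ≠ i1)
    (hr : ∀ i, i ≠ i0 → i ≠ i1 → r i ≤ 1) (f : CT m n r c → ℝ) :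
    ip f f - ip f (R univ f)
      ≤ K * ((m : ℝ) - 2)
          * ∑ p ∈ (univ : Finset (Fin m)).powersetCard 2, (ip f f - ip f (R p f)) := by
  refine two_fat_hgap hm r c i0 i1 h01 K hK ?_ ?_ ?_ f
  · intro φ p0 p1 x0 g
    have h20 : φ 2 ≠ i0 := fun h =>
      (by decide : (2 : Fin 4) ≠ 0) (φ.injective (h.trans p0.symm))
    have h21 : φ 2 ≠ i1 := fun h =>
      (by decide : (2 : Fin 4) ≠ 1) (φ.injective (h.trans p1.symm))
    have h30 : φ 3 ≠ i0 := fun h =>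
      (by decide : (3 : Fin 4) ≠ 0) (φ.injective (h.trans p0.symm))
    have h31 : φ 3 ≠ i1 := fun h =>
      (by decide : (3 : Fin 4) ≠ 1) (φ.injective (h.trans p1.symm))
    exact hFour (r ∘ φ) _ (hr (φ 2) h20 h21) (hr (φ 3) h30 h31) g
  · intro φ p0 p1 x0 g
    have h20 : φ 2 ≠ i0 := fun h =>
      (by decide : (2 : Fin 3) ≠ 0) (φ.injective (h.trans p0.symm))
    have h21 : φ 2 ≠ i1 := fun h =>
      (by decide : (2 : Fin 3) ≠ 1) (φ.injective (h.trans p1.symm))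
    exact hCrude (r ∘ φ) _ (hr (φ 2) h20 h21) g
  · intro φ hφ x0 g
    exact H48.threeRow_of_two_small (r ∘ φ) _ 0 1 (by decide)
      (hr (φ 0) (hφ 0).1 (hφ 0).2) (hr (φ 1) (hφ 1).1 (hφ 1).2) g

/-- **All rows except two have sum at most one, any column sums: mixing of the heat bath on
two-by-two blocks** in `m ^ 2 n ^ 2 K (m - 2) (m n log (N + 1) + log (1 / ε))` steps, given
the four-row inequality `hFour` and the three-row gap inequality `hCrude` with constant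
`K`. -/
theorem two_fat_family_mixing22 {n : ℕ} (hn : 2 ≤ n) (K : ℝ) (hK : 1 ≤ K)
    (hFour : ∀ (r4 : Fin 4 → ℕ) (c4 : Fin n → ℕ), r4 2 ≤ 1 → r4 3 ≤ 1 →
      ∀ g : CT 4 n r4 c4 → ℝ,
      ip g (R {2, 3} g) + ip g (R {0, 1, 3} g) + ip g (R {0, 1, 2} g)
        ≤ 2 * ip g g + ip g (R univ g))
    (hCrude : ∀ (r3 : Fin 3 → ℕ) (c3 : Fin n → ℕ), r3 2 ≤ 1 → ∀ g : CT 3 n r3 c3 → ℝ,
      ip g g - ip g (R univ g)
        ≤ K * ∑ q ∈ (univ : Finset (Fin 3)).powersetCard 2, (ip g g - ip g (R q g)))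
    {m : ℕ} (hm : 3 ≤ m) (r : Fin m → ℕ) (c : Fin n → ℕ) (i0 i1 : Fin m) (h01 : i0 ≠ i1)
    (hr : ∀ i, i ≠ i0 → i ≠ i1 → r i ≤ 1)
    (x : CT m n r c) (ε : ℝ) (hε : 0 < ε) (hε1 : ε ≤ 1) (t : ℕ)
    (ht : (m : ℝ) ^ 2 * (n : ℝ) ^ 2 * (K * ((m : ℝ) - 2)) *
      (m * n * Real.log (((∑ i, r i : ℕ) : ℝ) + 1) + Real.log (1 / ε)) ≤ t) :
    (1 / 2) * ∑ y, |(heatBath22 m n r c ^ t) x y - 1 / (Fintype.card (CT m n r c) : ℝ)| ≤ ε := by
  refine two_fat_mixing22 hm hn r c i0 i1 h01 K hK ?_ ?_ ?_ x ε hε hε1 t ht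
  · intro φ p0 p1 x0 g
    have h20 : φ 2 ≠ i0 := fun h =>
      (by decide : (2 : Fin 4) ≠ 0) (φ.injective (h.trans p0.symm))
    have h21 : φ 2 ≠ i1 := fun h =>
      (by decide : (2 : Fin 4) ≠ 1) (φ.injective (h.trans p1.symm))
    have h30 : φ 3 ≠ i0 := fun h =>
      (by decide : (3 : Fin 4) ≠ 0) (φ.injective (h.trans p0.symm))
    have h31 : φ 3 ≠ i1 := fun h =>
      (by decide : (3 : Fin 4) ≠ 1) (φ.injective (h.trans p1.symm))
    exact hFour (r ∘ φ) _ (hr (φ 2) h20 h21) (hr (φ 3) h30 h31) g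
  · intro φ p0 p1 x0 g
    have h20 : φ 2 ≠ i0 := fun h =>
      (by decide : (2 : Fin 3) ≠ 0) (φ.injective (h.trans p0.symm))
    have h21 : φ 2 ≠ i1 := fun h =>
      (by decide : (2 : Fin 3) ≠ 1) (φ.injective (h.trans p1.symm))
    exact hCrude (r ∘ φ) _ (hr (φ 2) h20 h21) g
  · intro φ hφ x0 g
    exact H48.threeRow_of_two_small (r ∘ φ) _ 0 1 (by decide)
      (hr (φ 0) (hφ 0).1 (hφ 0).2) (hr (φ 1) (hφ 1).1 (hφ 1).2) g

end BK

end Vale.Agent.Lib.P328.RP
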