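import Mathlib
import Vale.Agent.Lib.P328.helper28.TwoFatFamily
import Vale.Agent.Lib.P328.helper85.FourRowUnits
import Vale.Agent.Lib.P328.helper83.CrudeTriple

/-!
P328: two arbitrary rows and rows of sum at most one, all column sums: the mixing bound for
the heat bath on two-by-two blocks, without hypotheses.

* `BK.mixing22_two_fat_unit` : for `m, n ≥ 2`, if all rows except (at most) two have sum at
  most one, then `4 m ^ 3 n ^ 3 (m n log (N + 1) + log (1 / ε))` steps of the heat bath on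
  two-by-two blocks bring the chain within total variation distance `ε` of the uniform
  distribution, from every starting table.
-/

namespace Vale.Agent.Lib.P328.RP

open Finset
open Vale.Agent.Lib.P335.Bip

namespace BK

/-- **All rows except two have sum at most one, any column sums: mixing of the heat bath on
two-by-two blocks.** -/
theorem mixing22_two_fat_unit {m n : ℕ} (hm : 2 ≤ m) (hn : 2 ≤ n) (r : Fin m → ℕ)
    (c : Fin n → ℕ) (i0 i1 : Fin m) (hr : ∀ i, i ≠ i0 → i ≠ i1 → r i ≤ 1)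
    (x : CT m n r c) (ε : ℝ) (hε : 0 < ε) (hε1 : ε ≤ 1) (t : ℕ)
    (ht : 4 * (m : ℝ) ^ 3 * (n : ℝ) ^ 3 *
      (m * n * Real.log (((∑ i, r i : ℕ) : ℝ) + 1) + Real.log (1 / ε)) ≤ t) :
    (1 / 2) * ∑ y, |(heatBath22 m n r c ^ t) x y - 1 / (Fintype.card (CT m n r c) : ℝ)| ≤ ε := by
  have hm2 : (2 : ℝ) ≤ (m : ℝ) := by exact_mod_cast hm
  have hn2 : (2 : ℝ) ≤ (n : ℝ) := by exact_mod_cast hn
  have hm1 : (1 : ℝ) ≤ (m : ℝ) := by linarith
  have hn1 : (1 : ℝ) ≤ (n : ℝ) := by linarith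
  have hN1 : (1 : ℝ) ≤ ((∑ i, r i : ℕ) : ℝ) + 1 := by
    have : (0 : ℝ) ≤ ((∑ i, r i : ℕ) : ℝ) := Nat.cast_nonneg _
    linarith
  have hL0 : 0 ≤ Real.log (((∑ i, r i : ℕ) : ℝ) + 1) := Real.log_nonneg hN1
  have hlogε : 0 ≤ Real.log (1 / ε) := by
    apply Real.log_nonneg
    rw [le_div_iff₀ hε]
    linarith
  have hX0 : 0 ≤ (m : ℝ) * n * Real.log (((∑ i, r i : ℕ) : ℝ) + 1) + Real.log (1 / ε) := by
    have : 0 ≤ (m : ℝ) * n * Real.log (((∑ i, r i : ℕ) : ℝ) + 1) := by positivity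
    linarith
  rcases Nat.lt_or_ge m 3 with hm3 | hm3
  · -- two rows: there is no triple of rows
    refine mixing22_of_threeRow_at hm hn r c
      (fun φ => absurd (Fintype.card_le_of_embedding φ) (by
        rw [Fintype.card_fin, Fintype.card_fin]
        omega)) x ε hε hε1 t ?_
    refine le_trans ?_ ht
    apply mul_le_mul_of_nonneg_right _ hX0
    have a1 : (m : ℝ) ^ 2 ≤ (m : ℝ) ^ 3 := pow_le_pow_right₀ hm1 (by norm_num)
    have a2 : (n : ℝ) ^ 2 ≤ (n : ℝ) ^ 3 := pow_le_pow_right₀ hn1 (by norm_num)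
    have a3 : (m : ℝ) ^ 2 * (n : ℝ) ^ 2 ≤ (m : ℝ) ^ 3 * (n : ℝ) ^ 3 :=
      mul_le_mul a1 a2 (by positivity) (by positivity)
    have a4 : 0 ≤ (m : ℝ) ^ 3 * (n : ℝ) ^ 3 := by positivity
    linarith
  · -- at least three rows: the block argument
    obtain ⟨i1', h01, hr'⟩ : ∃ i1' : Fin m, i0 ≠ i1' ∧ ∀ i, i ≠ i0 → i ≠ i1' → r i ≤ 1 := by
      by_cases h : i0 = i1
      · have hnt : Nontrivial (Fin m) := Fin.nontrivial_iff_two_le.mpr hm
        obtain ⟨j, hj⟩ := exists_ne i0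
        exact ⟨j, Ne.symm hj, fun i hi0 _ => hr i hi0 (h ▸ hi0)⟩
      · exact ⟨i1, h, hr⟩
    refine two_fat_family_mixing22 hn (4 * (n : ℝ)) (by linarith)
      (fun r4 c4 h2 h3 g => H85.fourRow_two_units' n r4 c4 h2 h3 g)
      (fun r3 c3 h g => crude_triple_le r3 c3 h g) hm3 r c i0 i1' h01 hr' x ε hε hε1 t ?_
    refine le_trans ?_ ht
    apply mul_le_mul_of_nonneg_right _ hX0
    have b1 : (m : ℝ) ^ 2 * (n : ℝ) ^ 2 * (4 * (n : ℝ) * ((m : ℝ) - 2))
        = 4 * ((m : ℝ) ^ 2 * (n : ℝ) ^ 3) * ((m : ℝ) - 2) := by ring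
    have b2 : 4 * (m : ℝ) ^ 3 * (n : ℝ) ^ 3 = 4 * ((m : ℝ) ^ 2 * (n : ℝ) ^ 3) * (m : ℝ) := by
      ring
    rw [b1, b2]
    exact mul_le_mul_of_nonneg_left (by linarith) (by positivity)

end BK

end Vale.Agent.Lib.P328.RP
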