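import Mathlib
import Vale.Agent.Lib.P328.helper28.TwoFatFinal
import Vale.Agent.Lib.P328.helper14.TransposeChain

/-!
P328: the row and column version of `BK.mixing22_two_fat_unit`.

* `BK.mixing22_two_fat_unit_cols` : all columns except two have sum at most one, any row sums.
* `BK.mixing22_two_fat_unit_sym` : all rows except two have sum at most one, or all columns
  except two have sum at most one.
-/

namespace Vale.Agent.Lib.P328.RP

open Finset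
open Vale.Agent.Lib.P335.Bip

namespace BK

/-- **All columns except two have sum at most one, any row sums: mixing of the heat bath on
two-by-two blocks.** -/
theorem mixing22_two_fat_unit_cols {m n : ℕ} (hm : 2 ≤ m) (hn : 2 ≤ n) (r : Fin m → ℕ)
    (c : Fin n → ℕ) (j0 j1 : Fin n) (hc : ∀ j, j ≠ j0 → j ≠ j1 → c j ≤ 1)
    (x : CT m n r c) (ε : ℝ) (hε : 0 < ε) (hε1 : ε ≤ 1) (t : ℕ)
    (ht : 4 * (m : ℝ) ^ 3 * (n : ℝ) ^ 3 *
      (m * n * Real.log (((∑ i, r i : ℕ) : ℝ) + 1) + Real.log (1 / ε)) ≤ t) :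
    (1 / 2) * ∑ y, |(heatBath22 m n r c ^ t) x y - 1 / (Fintype.card (CT m n r c) : ℝ)| ≤ ε := by
  apply mixing22_of_tr x ε t
  refine mixing22_two_fat_unit hn hm c r j0 j1 hc (tr x) ε hε hε1 t ?_
  rw [← sum_rows_eq_sum_cols x]
  have e : 4 * (n : ℝ) ^ 3 * (m : ℝ) ^ 3 *
      (n * m * Real.log (((∑ i, r i : ℕ) : ℝ) + 1) + Real.log (1 / ε))
      = 4 * (m : ℝ) ^ 3 * (n : ℝ) ^ 3 *
      (m * n * Real.log (((∑ i, r i : ℕ) : ℝ) + 1) + Real.log (1 / ε)) := by ring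
  rw [e]
  exact ht

/-- **All rows except two have sum at most one, or all columns except two have sum at most
one: mixing of the heat bath on two-by-two blocks** in
`4 m ^ 3 n ^ 3 (m n log (N + 1) + log (1 / ε))` steps. -/
theorem mixing22_two_fat_unit_sym {m n : ℕ} (hm : 2 ≤ m) (hn : 2 ≤ n) (r : Fin m → ℕ)
    (c : Fin n → ℕ)
    (h : (∃ i0 i1 : Fin m, ∀ i, i ≠ i0 → i ≠ i1 → r i ≤ 1)
      ∨ (∃ j0 j1 : Fin n, ∀ j, j ≠ j0 → j ≠ j1 → c j ≤ 1))
    (x : CT m n r c) (ε : ℝ) (hε : 0 < ε) (hε1 : ε ≤ 1) (t : ℕ)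
    (ht : 4 * (m : ℝ) ^ 3 * (n : ℝ) ^ 3 *
      (m * n * Real.log (((∑ i, r i : ℕ) : ℝ) + 1) + Real.log (1 / ε)) ≤ t) :
    (1 / 2) * ∑ y, |(heatBath22 m n r c ^ t) x y - 1 / (Fintype.card (CT m n r c) : ℝ)| ≤ ε := by
  rcases h with ⟨i0, i1, hr⟩ | ⟨j0, j1, hc⟩
  · exact mixing22_two_fat_unit hm hn r c i0 i1 hr x ε hε hε1 t ht
  · exact mixing22_two_fat_unit_cols hm hn r c j0 j1 hc x ε hε hε1 t ht

end BK

end Vale.Agent.Lib.P328.RP
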